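import Mathlib

/-!
# Matrix identities for Pauli matrices and infinitesimal rotations
-/

namespace Vale.Agent.P286ER4

open Matrix

noncomputable section

section Gen

variable {K : Type} [CommRing K]

/-- The Pauli matrix of a vector. -/
def h2 (i : K) (ξ : Fin 3 → K) : Matrix (Fin 2) (Fin 2) K :=
  !![ξ 2, ξ 0 - i * ξ 1; ξ 0 + i * ξ 1, -ξ 2]

/-- The infinitesimal rotation of a vector. -/
def h3 (i : K) (ξ : Fin 3 → K) : Matrix (Fin 3) (Fin 3) K :=
  !![0, -(i * ξ 2), i * ξ 1; i * ξ 2, 0, -(i * ξ 0); -(i * ξ 1), i * ξ 0, 0]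

variable {i : K} {h : Fin 3 → K}

theorem dot3 (hh : h ⬝ᵥ h = 1) : h 0 * h 0 + h 1 * h 1 + h 2 * h 2 = 1 := by
  rw [← hh, dotProduct, Fin.sum_univ_three]

theorem h2_sq (hi : i * i = -1) (hh : h ⬝ᵥ h = 1) : h2 i h * h2 i h = 1 := by
  have h1 := dot3 hh
  ext a b
  fin_cases a <;> fin_cases b <;> simp [h2, Matrix.mul_apply, Fin.sum_univ_two] <;> grind

theorem h2_det (hi : i * i = -1) (hh : h ⬝ᵥ h = 1) {p q : K} (hp : p * p - q * q = 1) :
    (p • (1 : Matrix (Fin 2) (Fin 2) K) + q • h2 i h).det = 1 := by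
  have h1 := dot3 hh
  simp [h2, det_fin_two]
  grind

theorem form2 (a : Matrix (Fin 2) (Fin 2) K) (ha : a.det = 1) :
    aᵀ * !![0, 1; -1, 0] * a = !![0, 1; -1, 0] := by
  rw [det_fin_two] at ha
  ext c b
  fin_cases c <;> fin_cases b <;> simp [Matrix.mul_apply, Fin.sum_univ_two] <;> grind

theorem h2_ad (hi : i * i = -1) (hh : h ⬝ᵥ h = 1) {p q : K} (hp : p * p - q * q = 1)
    (ξ : Fin 3 → K) :
    h2 i ((1 + (2 * p * q) • h3 i h + (2 * q * q) • (h3 i h * h3 i h)) *ᵥ ξ) *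
      (p • (1 : Matrix (Fin 2) (Fin 2) K) + q • h2 i h) =
      (p • (1 : Matrix (Fin 2) (Fin 2) K) + q • h2 i h) * h2 i ξ := by
  have h1 := dot3 hh
  ext a b
  fin_cases a <;> fin_cases b <;>
    simp [h2, h3, Matrix.mul_apply, Fin.sum_univ_two, Fin.sum_univ_three, mulVec, dotProduct,
      Matrix.one_apply] <;> grind

theorem h3_cube (hi : i * i = -1) (hh : h ⬝ᵥ h = 1) : h3 i h * h3 i h * h3 i h = h3 i h := by
  have h1 := dot3 hh
  ext a b
  fin_cases a <;> fin_cases b <;> simp [h3, Matrix.mul_apply, Fin.sum_univ_three] <;> grind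

theorem h3_tr : (h3 i h)ᵀ = -h3 i h := by
  ext a b
  fin_cases a <;> fin_cases b <;> simp [h3]

theorem h3_inv (hi : i * i = -1) (hh : h ⬝ᵥ h = 1) {s c : K} (hp : (c + 1) * (c + 1) - s * s = 1) :
    (1 + (-s) • h3 i h + c • (h3 i h * h3 i h)) * (1 + s • h3 i h + c • (h3 i h * h3 i h)) = 1 := by
  have h3' := h3_cube hi hh
  have h4 : h3 i h * (h3 i h * h3 i h) = h3 i h := by rw [← Matrix.mul_assoc, h3']
  have h5 : h3 i h * h3 i h * (h3 i h * h3 i h) = h3 i h * h3 i h := by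
    rw [← Matrix.mul_assoc, h3']
  have h6 : c + c + c * c - s * s = 0 := by linear_combination hp
  simp only [Matrix.add_mul, Matrix.mul_add, Matrix.one_mul, Matrix.mul_one, Matrix.smul_mul,
    Matrix.mul_smul, h3', h4, h5]
  have : (c + c + c * c - s * s) • (h3 i h * h3 i h) = 0 := by rw [h6, zero_smul]
  linear_combination (norm := module) this

theorem h3_det (hi : i * i = -1) (hh : h ⬝ᵥ h = 1) {s c : K} (hp : (c + 1) * (c + 1) - s * s = 1) :
    (1 + s • h3 i h + c • (h3 i h * h3 i h)).det = 1 := by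
  have h1 := dot3 hh
  simp [h3, det_fin_three]
  grind

theorem h3_adj (a : Matrix (Fin 3) (Fin 3) K) (ξ : Fin 3 → K) :
    h3 i (a *ᵥ ξ) * a = a.adjugateᵀ * h3 i ξ := by
  ext c b
  fin_cases c <;> fin_cases b <;>
    simp [h3, adjugate_fin_three, Matrix.mul_apply, Fin.sum_univ_three, mulVec, dotProduct] <;> ring

theorem adj_of {n : ℕ} {a a' : Matrix (Fin n) (Fin n) K} (h1 : a' * a = 1) (hd : a.det = 1) :
    a.adjugate = a' := by
  rw [← Matrix.one_mul a.adjugate, ← h1, Matrix.mul_assoc, mul_adjugate, hd, one_smul,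
    Matrix.mul_one]

theorem inv_of_sq {n : ℕ} {H : Matrix (Fin n) (Fin n) K} (hH : H * H = 1) {p q p' q' : K}
    (e1 : p' * p + q' * q = 1) (e2 : p' * q + q' * p = 0) :
    (p' • (1 : Matrix (Fin n) (Fin n) K) + q' • H) * (p • 1 + q • H) = 1 := by
  simp only [Matrix.add_mul, Matrix.mul_add, Matrix.one_mul, Matrix.mul_one,
    Matrix.smul_mul, Matrix.mul_smul, hH]
  linear_combination (norm := module) e1 • (1 : Matrix (Fin n) (Fin n) K) + e2 • H

end Gen

end

end Vale.Agent.P286ER4
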