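import Vale.Agent.P286ER.IF
import Vale.Agent.P286ER4.Gen

/-!
# The one-parameter group generated by a unit vector of the Lie algebra
-/

namespace Vale.Agent.P286ER4

open Matrix Vale.Agent.P286E Vale.Agent.P286ER

noncomputable section


variable {A : Type} [CommRing A] [Algebra ℂ A]

/-- The imaginary unit. -/
def im (A : Type) [CommRing A] [Algebra ℂ A] : Ls A := HahnSeries.C (algebraMap ℂ A Complex.I)

theorem im_sq : im A * im A = -1 := by
  rw [im, ← map_mul, ← map_mul, Complex.I_mul_I, map_neg, map_one, map_neg, map_one]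

theorem hat2 (ξ : Fin 3 → Ls A) : SL2.hat ξ = h2 (im A) ξ := by
  have : ∑ i, ξ i • cst A (N := 2) (SL2.β i) = h2 (im A) ξ := by
    refine Matrix.ext fun a b => ?_
    rw [Fin.sum_univ_three]
    simp only [Matrix.add_apply, Matrix.smul_apply, cst, smul_eq_mul]
    fin_cases a <;> fin_cases b <;> simp [SL2, h2, im, mul_comm, sub_eq_add_neg]
  exact this

theorem hat3 (ξ : Fin 3 → Ls A) : SO3.hat ξ = h3 (im A) ξ := by
  have : ∑ i, ξ i • cst A (N := 3) (SO3.β i) = h3 (im A) ξ := by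
    refine Matrix.ext fun a b => ?_
    rw [Fin.sum_univ_three]
    simp only [Matrix.add_apply, Matrix.smul_apply, cst, smul_eq_mul]
    fin_cases a <;> fin_cases b <;> simp [SO3, h3, im, mul_comm]
  exact this

theorem hat_single (G : Grp) (j : Fin 3) :
    G.hat (Pi.single j (1 : Ls A)) = cst A (G.β j) := by
  rw [Grp.hat, Finset.sum_eq_single j (fun b _ hb => by rw [Pi.single_eq_of_ne hb, zero_smul])
    (fun hj => absurd (Finset.mem_univ j) hj), Pi.single_eq_same, one_smul]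

theorem tr_hat {G : Grp} (hG : G = SL2 ∨ G = SO3) (ξ η : Fin 3 → Ls A) :
    trace (G.hat ξ * G.hat η) = 2 * (ξ ⬝ᵥ η) := by
  have hi := im_sq (A := A)
  rcases hG with rfl | rfl
  · rw [hat2, hat2]
    change trace (h2 (im A) ξ * h2 (im A) η : Matrix (Fin 2) (Fin 2) (Ls A)) = _
    simp [h2, trace_fin_two, dotProduct, Fin.sum_univ_three]
    grind
  · rw [hat3, hat3]
    change trace (h3 (im A) ξ * h3 (im A) η : Matrix (Fin 3) (Fin 3) (Ls A)) = _
    simp [h3, trace_fin_three, dotProduct, Fin.sum_univ_three]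
    grind

theorem half_two (w : Ls A) : algebraMap ℂ A 2⁻¹ • (2 * w) = w := by
  have : (2 : Ls A) * w = algebraMap ℂ A 2 • w := by
    rw [map_ofNat, two_smul, two_mul]
  rw [this, smul_smul, ← map_mul, inv_mul_cancel₀ two_ne_zero, map_one, one_smul]

/-- A matrix which intertwines the conjugation by `a` is the adjoint matrix. -/
theorem ad_eq {G : Grp} (hG : G = SL2 ∨ G = SO3) {a : Matrix (Fin G.N) (Fin G.N) (Ls A)}
    (hd : a.det = 1) {M : Matrix (Fin 3) (Fin 3) (Ls A)}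
    (hM : ∀ ξ, G.hat (M *ᵥ ξ) * a = a * G.hat ξ) : G.ad a = M := by
  refine Matrix.ext fun i j => ?_
  rw [Grp.ad, of_apply, ← hat_single, ← hat_single, Matrix.mul_assoc _ a, ← hM,
    Matrix.mul_assoc, Matrix.mul_assoc, mul_adjugate, hd, one_smul, Matrix.mul_one, tr_hat hG,
    half_two, single_dotProduct, one_mul, mulVec_single_one]
  rfl

omit [Algebra ℂ A] in
theorem smul_C {n : ℕ} (c : A) (m : Matrix (Fin n) (Fin n) (Ls A)) :
    c • m = (HahnSeries.C c : Ls A) • m :=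
  Matrix.ext fun i j => by
    rw [Matrix.smul_apply, Matrix.smul_apply, smul_eq_mul, HahnSeries.C_mul_eq_smul]

theorem half_add : algebraMap ℂ A 2⁻¹ + algebraMap ℂ A 2⁻¹ = 1 := by
  rw [← map_add, ← map_one (algebraMap ℂ A)]
  norm_num

/-- The element for `SL_2`. -/
theorem one2 {h : Fin 3 → Ls A} (hh : h ⬝ᵥ h = 1) {τ τ' : A} (hτ : τ * τ' = 1)
    (a : Matrix (Fin SL2.N) (Fin SL2.N) (Ls A))
    (ha : a = (algebraMap ℂ A 2⁻¹ * (τ + τ')) • 1 + (algebraMap ℂ A 2⁻¹ * (τ - τ')) • SL2.hat h) :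
    a.det = 1 ∧ aᵀ * cst A SL2.F * a = cst A SL2.F ∧
      SL2.ad a = 1 + (algebraMap ℂ A 2⁻¹ * (τ ^ 2 - τ' ^ 2)) • rot h +
        (algebraMap ℂ A 2⁻¹ * (τ ^ 2 + τ' ^ 2) - 1) • (rot h * rot h) ∧
      ∀ ξ, SL2.hat (SL2.ad a *ᵥ ξ) * a = a * SL2.hat ξ := by
  have he := half_add (A := A)
  set e := algebraMap ℂ A 2⁻¹
  have hp : (HahnSeries.C (e * (τ + τ')) : Ls A) * HahnSeries.C (e * (τ + τ')) -
      HahnSeries.C (e * (τ - τ')) * HahnSeries.C (e * (τ - τ')) = 1 := by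
    rw [← map_mul, ← map_mul, ← map_sub, ← map_one (HahnSeries.C : A →+* Ls A)]
    congr 1
    grind
  rw [smul_C, smul_C, hat2] at ha
  have hd : a.det = 1 := by
    rw [ha]
    exact h2_det im_sq hh hp
  have h1 : (HahnSeries.C (e * (τ ^ 2 - τ' ^ 2)) : Ls A) =
      2 * HahnSeries.C (e * (τ + τ')) * HahnSeries.C (e * (τ - τ')) := by
    rw [← map_ofNat (HahnSeries.C : A →+* Ls A) 2, ← map_mul, ← map_mul]
    congr 1
    grind
  have h2' : (HahnSeries.C (e * (τ ^ 2 + τ' ^ 2) - 1) : Ls A) =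
      2 * HahnSeries.C (e * (τ - τ')) * HahnSeries.C (e * (τ - τ')) := by
    rw [← map_ofNat (HahnSeries.C : A →+* Ls A) 2, ← map_mul, ← map_mul]
    congr 1
    grind
  have hM : ∀ ξ, SL2.hat ((1 + (e * (τ ^ 2 - τ' ^ 2)) • rot h +
      (e * (τ ^ 2 + τ' ^ 2) - 1) • (rot h * rot h)) *ᵥ ξ) * a = a * SL2.hat ξ := fun ξ => by
    rw [hat2, hat2, smul_C, smul_C, h1, h2', rot, hat3, ha]
    exact h2_ad im_sq hh hp ξ
  have had := ad_eq (G := SL2) (Or.inl rfl) hd hM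
  refine ⟨hd, ?_, had, fun ξ => by rw [had]; exact hM ξ⟩
  have hF : cst A (N := 2) SL2.F = !![0, 1; -1, 0] := by
    refine Matrix.ext fun a b => ?_
    simp only [cst]
    fin_cases a <;> fin_cases b <;> simp [SL2]
  have := form2 a hd
  rw [← hF] at this
  exact this

/-- The element for `SO_3`. -/
theorem one3 {h : Fin 3 → Ls A} (hh : h ⬝ᵥ h = 1) {s c : A} (hp : (c + 1) * (c + 1) - s * s = 1)
    (a : Matrix (Fin SO3.N) (Fin SO3.N) (Ls A))
    (ha : a = 1 + s • SO3.hat h + c • (SO3.hat h * SO3.hat h)) :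
    a.det = 1 ∧ aᵀ * cst A SO3.F * a = cst A SO3.F ∧ SO3.ad a = a ∧
      (∀ ξ, SO3.hat (SO3.ad a *ᵥ ξ) * a = a * SO3.hat ξ) ∧
      (1 + (-s) • SO3.hat h + c • (SO3.hat h * SO3.hat h)) * a = 1 := by
  have hp' : ((HahnSeries.C c : Ls A) + 1) * (HahnSeries.C c + 1) -
      HahnSeries.C s * HahnSeries.C s = 1 := by
    rw [← map_one (HahnSeries.C : A →+* Ls A), ← map_add, ← map_mul, ← map_mul, ← map_sub, hp]
  have hd : a.det = 1 := by
    rw [ha, smul_C, smul_C, hat3]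
    exact h3_det im_sq hh hp'
  have htr : (SO3.hat h)ᵀ = -SO3.hat h := by
    rw [hat3]
    exact h3_tr
  have ht : aᵀ = 1 + (-s) • SO3.hat h + c • (SO3.hat h * SO3.hat h) := by
    rw [ha, transpose_add, transpose_add, transpose_one, transpose_smul, transpose_smul,
      transpose_mul, htr, neg_mul_neg, smul_neg, neg_smul]
  have hi : aᵀ * a = 1 := by
    rw [ht, ha, smul_C, smul_C, smul_C, map_neg, hat3]
    exact h3_inv im_sq hh hp'
  have hM : ∀ ξ, SO3.hat (a *ᵥ ξ) * a = a * SO3.hat ξ := fun ξ => by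
    have h1 : SO3.hat (a *ᵥ ξ) * a = a.adjugateᵀ * SO3.hat ξ := by
      rw [hat3 ξ, hat3]
      exact h3_adj a ξ
    rw [h1, adj_of hi hd, transpose_transpose]
  have had := ad_eq (G := SO3) (Or.inr rfl) hd hM
  refine ⟨hd, ?_, had, fun ξ => by rw [had]; exact hM ξ, ht ▸ hi⟩
  have hF : cst A SO3.F = 1 := Matrix.map_one _ (by simp) (by simp)
  rw [hF, Matrix.mul_one, hi]

theorem onep : ONEP := by
  intro G hG A _ _ h hh τ τ' hτ
  have hτ' : τ' * τ = 1 := by rw [mul_comm, hτ]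
  have he := half_add (A := A)
  rcases hG with rfl | rfl
  · obtain ⟨d1, f1, a1, l1⟩ := one2 hh hτ _ rfl
    obtain ⟨d2, f2, a2, l2⟩ := one2 hh hτ' _ rfl
    set e := algebraMap ℂ A 2⁻¹
    have hsq : SL2.hat h * SL2.hat h = 1 := by
      rw [hat2]
      exact h2_sq im_sq hh
    have hi : ((e * (τ' + τ)) • (1 : Matrix (Fin SL2.N) (Fin SL2.N) (Ls A)) +
        (e * (τ' - τ)) • SL2.hat h) * ((e * (τ + τ')) • 1 + (e * (τ - τ')) • SL2.hat h) = 1 := by
      have e1 : (HahnSeries.C (e * (τ' + τ)) : Ls A) * HahnSeries.C (e * (τ + τ')) +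
          HahnSeries.C (e * (τ' - τ)) * HahnSeries.C (e * (τ - τ')) = 1 := by
        rw [← map_mul, ← map_mul, ← map_add, ← map_one (HahnSeries.C : A →+* Ls A)]
        congr 1
        grind
      have e2 : (HahnSeries.C (e * (τ' + τ)) : Ls A) * HahnSeries.C (e * (τ - τ')) +
          HahnSeries.C (e * (τ' - τ)) * HahnSeries.C (e * (τ + τ')) = 0 := by
        rw [← map_mul, ← map_mul, ← map_add, ← map_zero (HahnSeries.C : A →+* Ls A)]
        congr 1
        ring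
      rw [smul_C, smul_C, smul_C, smul_C]
      exact inv_of_sq hsq e1 e2
    refine ⟨![e * (τ + τ'), e * (τ - τ'), 0], ![e * (τ' + τ), e * (τ' - τ), 0], _, _, ?_, ?_, hi,
      d1, d2, f1, f2, adj_of hi d1, adj_of (mul_eq_one_comm.1 hi) d2, a1, a2, l1, l2⟩ <;>
    · rw [Fin.sum_univ_three]
      simp
  · set e := algebraMap ℂ A 2⁻¹
    have hp : ∀ σ σ' : A, σ * σ' = 1 → ((e * (σ ^ 2 + σ' ^ 2) - 1) + 1) *
        ((e * (σ ^ 2 + σ' ^ 2) - 1) + 1) - e * (σ ^ 2 - σ' ^ 2) * (e * (σ ^ 2 - σ' ^ 2)) = 1 := by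
      intro σ σ' hσ
      grind
    obtain ⟨d1, f1, a1, l1, hi⟩ := one3 hh (hp _ _ hτ) _ rfl
    obtain ⟨d2, f2, a2, l2, -⟩ := one3 hh (hp _ _ hτ') _ rfl
    rw [show -(e * (τ ^ 2 - τ' ^ 2)) = e * (τ' ^ 2 - τ ^ 2) by ring] at hi
    conv at hi => enter [1, 1, 2, 1]; rw [add_comm (τ ^ 2)]
    refine ⟨![1, e * (τ ^ 2 - τ' ^ 2), e * (τ ^ 2 + τ' ^ 2) - 1],
      ![1, e * (τ' ^ 2 - τ ^ 2), e * (τ' ^ 2 + τ ^ 2) - 1], _, _, ?_, ?_, hi,
      d1, d2, f1, f2, adj_of hi d1, adj_of (mul_eq_one_comm.1 hi) d2, a1, a2, l1, l2⟩ <;>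
    · rw [Fin.sum_univ_three]
      simp [pow_two]

end

end Vale.Agent.P286ER4
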